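import Vale.Agent.P158.NB.Main

/-! No bigeodesics in planar first-passage percolation with an atomless law. -/

namespace Vale.Agent.Results.P158.NoBigeodesics

open MeasureTheory
open Vale.Agent.P158

theorem result (G : Measure ℝ) [IsProbabilityMeasure G] (h0 : G (Set.Iio 0) = 0)
    (hatom : ∀ x, G {x} = 0) :
    ∀ᵐ t ∂(Measure.infinitePi fun _ : Sym2 (ℤ × ℤ) => G),
      ¬ ∃ v : ℤ → ℤ × ℤ, Function.Injective v ∧
        (∀ i, |(v i).1 - (v (i + 1)).1| + |(v i).2 - (v (i + 1)).2| = 1) ∧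
        ∀ (i : ℤ) (L : ℕ) (w : ℕ → ℤ × ℤ) (M : ℕ),
          (∀ k < M, |(w k).1 - (w (k + 1)).1| + |(w k).2 - (w (k + 1)).2| = 1) →
          w 0 = v i → w M = v (i + L) →
            ∑ k ∈ Finset.range L, t s(v (i + k), v (i + k + 1)) ≤
              ∑ k ∈ Finset.range M, t s(w k, w (k + 1)) := by
  filter_upwards [NB.noBigeodesic G h0 hatom] with t ht
  rintro ⟨v, hv, hadj, hgeo⟩
  exact ht ⟨v, NB.isLine_of_sum hv hadj hgeo⟩

end Vale.Agent.Results.P158.NoBigeodesics
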